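import Vale.Agent.Lib.P057.helper31.Core

/-!
# P057 (helper31): automatic sets have bounded residual width

Glue between the core theorem and finite automata reading base-`b` digits.
-/

namespace Vale.Agent.Lib.P057.H31

/-- The `s` low digits of `r` (least significant first), padded with zeros. -/
def pad (b s r : ℕ) : List ℕ :=
  Nat.digits b r ++ List.replicate (s - (Nat.digits b r).length) 0

theorem pad_length {b s r : ℕ} (hb : 2 ≤ b) (hr : r < b ^ s) : (pad b s r).length = s := by
  have hlen : (Nat.digits b r).length ≤ s := (Nat.digits_length_le_iff (by omega) r).2 hr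
  simp only [pad, List.length_append, List.length_replicate]
  omega

theorem digits_low_high {b s r t : ℕ} (hb : 2 ≤ b) (hr : r < b ^ s) (ht : 0 < t) :
    Nat.digits b (r + b ^ s * t) = pad b s r ++ Nat.digits b t := by
  have hlen : (Nat.digits b r).length ≤ s := (Nat.digits_length_le_iff (by omega) r).2 hr
  have h := Nat.digits_append_zeroes_append_digits (b := b)
    (k := s - (Nat.digits b r).length) (m := t) (n := r) (by omega) ht
  have he : (Nat.digits b r).length + (s - (Nat.digits b r).length) = s := by omega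
  rw [he] at h
  rw [pad, h]

theorem low_high_pos {b s r t : ℕ} (hb : 2 ≤ b) (ht : 0 < t) : 0 < r + b ^ s * t := by
  have : 0 < b ^ s * t := Nat.mul_pos (Nat.pow_pos (by omega)) ht
  omega

theorem not_summable_indicator {A : Set ℕ}
    (hdiv : ¬ Summable (fun a : A => (1 : ℝ) / ((a : ℕ) : ℝ))) :
    ¬ Summable (A.indicator (fun n : ℕ => (1 : ℝ) / n)) := by
  intro h
  apply hdiv
  exact (summable_subtype_iff_indicator (f := fun n : ℕ => (1 : ℝ) / n) (s := A)).2 h

/-- Least significant digit first, transitions may depend on the digit position. -/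
theorem ap_of_varying_lsd (b : ℕ) (hb : 2 ≤ b) {Q : Type*} [Finite Q]
    (δ : ℕ → Q → ℕ → Q) (q₀ : Q) (acc : Q → Prop) (A : Set ℕ)
    (hA : ∀ n, n ∈ A ↔
      0 < n ∧ acc ((Nat.digits b n).zipIdx.foldl (fun q p => δ p.2 q p.1) q₀))
    (hdiv : ¬ Summable (fun a : A => (1 : ℝ) / ((a : ℕ) : ℝ))) (k : ℕ) :
    ∃ a d : ℕ, 0 < d ∧ ∀ i < k, a + i * d ∈ A := by
  refine core hb A (fun s r => (pad b s r).zipIdx.foldl (fun q p => δ p.2 q p.1) q₀) ?_
    (not_summable_indicator hdiv) k
  intro s r r' hr hr' hT t ht hmem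
  rw [hA] at hmem ⊢
  refine ⟨low_high_pos hb ht, ?_⟩
  have h1 := hmem.2
  rw [digits_low_high hb hr ht, List.zipIdx_append, List.foldl_append, pad_length hb hr] at h1
  rw [digits_low_high hb hr' ht, List.zipIdx_append, List.foldl_append, pad_length hb hr']
  rw [← hT]; exact h1

/-- Least significant digit first, ordinary automaton. -/
theorem ap_of_lsd (b : ℕ) (hb : 2 ≤ b) {Q : Type*} [Finite Q]
    (δ : Q → ℕ → Q) (q₀ : Q) (acc : Q → Prop) (A : Set ℕ)
    (hA : ∀ n, n ∈ A ↔ 0 < n ∧ acc ((Nat.digits b n).foldl δ q₀))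
    (hdiv : ¬ Summable (fun a : A => (1 : ℝ) / ((a : ℕ) : ℝ))) (k : ℕ) :
    ∃ a d : ℕ, 0 < d ∧ ∀ i < k, a + i * d ∈ A := by
  refine core hb A (fun s r => (pad b s r).foldl δ q₀) ?_ (not_summable_indicator hdiv) k
  intro s r r' hr hr' hT t ht hmem
  rw [hA] at hmem ⊢
  refine ⟨low_high_pos hb ht, ?_⟩
  have h1 := hmem.2
  rw [digits_low_high hb hr ht, List.foldl_append] at h1
  rw [digits_low_high hb hr' ht, List.foldl_append]
  rw [← hT]; exact h1

/-- Most significant digit first, ordinary automaton. -/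
theorem ap_of_msd (b : ℕ) (hb : 2 ≤ b) {Q : Type*} [Finite Q]
    (δ : Q → ℕ → Q) (q₀ : Q) (acc : Q → Prop) (A : Set ℕ)
    (hA : ∀ n, n ∈ A ↔ 0 < n ∧ acc ((Nat.digits b n).reverse.foldl δ q₀))
    (hdiv : ¬ Summable (fun a : A => (1 : ℝ) / ((a : ℕ) : ℝ))) (k : ℕ) :
    ∃ a d : ℕ, 0 < d ∧ ∀ i < k, a + i * d ∈ A := by
  refine core hb A (κ := Q → Prop)
    (fun s r => fun q => acc ((pad b s r).reverse.foldl δ q)) ?_ (not_summable_indicator hdiv) k
  intro s r r' hr hr' hT t ht hmem
  rw [hA] at hmem ⊢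
  refine ⟨low_high_pos hb ht, ?_⟩
  have h1 := hmem.2
  rw [digits_low_high hb hr ht, List.reverse_append, List.foldl_append] at h1
  rw [digits_low_high hb hr' ht, List.reverse_append, List.foldl_append]
  have h2 := congrFun hT ((Nat.digits b t).reverse.foldl δ q₀)
  rw [← h2]; exact h1

end Vale.Agent.Lib.P057.H31
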