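import Mathlib

/-!
# P057 (helper31): sets of bounded residual width

Core theorem: if the low parts `r < b ^ s` of the elements of `A` fall into boundedly many classes
(a finite type `κ` of classes, the same for every level `s`) such that low parts of one class have
the same completions, and the reciprocal series of `A` diverges, then `A` contains arithmetic
progressions of every length.  The proof uses the Hales-Jewett theorem of Mathlib.
-/

namespace Vale.Agent.Lib.P057.H31

open Finset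

/-- `Dead b A s r`: no number with low part `r` and nonzero high part (above `b ^ s`) lies in `A`. -/
def Dead (b : ℕ) (A : Set ℕ) (s r : ℕ) : Prop := ∀ t, 0 < t → r + b ^ s * t ∉ A

theorem dead_ext {b : ℕ} {A : Set ℕ} {s r : ℕ} (hb : 2 ≤ b) (h : Dead b A s r) (l v : ℕ) :
    Dead b A (s + l) (r + b ^ s * v) := by
  intro t ht
  have h1 : r + b ^ s * v + b ^ (s + l) * t = r + b ^ s * (v + b ^ l * t) := by
    rw [pow_add]; ring
  rw [h1]
  apply h
  have : 0 < b ^ l * t := Nat.mul_pos (Nat.pow_pos (by omega)) ht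
  omega

open Classical in
/-- The low parts below `b ^ (j * L)` that are not dead. -/
noncomputable def ND (b : ℕ) (A : Set ℕ) (L j : ℕ) : Finset ℕ :=
  (range (b ^ (j * L))).filter (fun r => ¬ Dead b A (j * L) r)

open Classical in
/-- The elements of `A` in the block `[b ^ (j * L), b ^ ((j + 1) * L))`. -/
noncomputable def Blk (b : ℕ) (A : Set ℕ) (L j : ℕ) : Finset ℕ :=
  (Ico (b ^ (j * L)) (b ^ ((j + 1) * L))).filter (fun n => n ∈ A)

theorem card_ND_le {b : ℕ} (hb : 2 ≤ b) (A : Set ℕ) (L : ℕ)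
    (hK : ∀ s r, r < b ^ s → ∃ v, v < b ^ L ∧ Dead b A (s + L) (r + b ^ s * v)) (j : ℕ) :
    (ND b A L j).card ≤ (b ^ L - 1) ^ j := by
  classical
  induction j with
  | zero =>
    simp only [ND, Nat.zero_mul, pow_zero]
    calc _ ≤ (range 1).card := card_filter_le _ _
      _ = 1 := by simp
  | succ j ih =>
    set B := b ^ (j * L) with hB
    have hBpos : 0 < B := Nat.pow_pos (by omega)
    have hlev : (j + 1) * L = j * L + L := by ring
    have himg : (ND b A L (j + 1)).image (fun x => x % B) ⊆ ND b A L j := by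
      intro a ha
      obtain ⟨x, hx, rfl⟩ := mem_image.1 ha
      simp only [ND, mem_filter, mem_range] at hx ⊢
      refine ⟨Nat.mod_lt _ hBpos, fun hd => hx.2 ?_⟩
      have h1 := dead_ext hb hd L (x / B)
      rw [hlev]
      rwa [Nat.mod_add_div] at h1
    have hfib : ∀ a ∈ (ND b A L (j + 1)).image (fun x => x % B),
        ((ND b A L (j + 1)).filter (fun x => x % B = a)).card ≤ b ^ L - 1 := by
      intro a ha
      have haND := himg ha
      simp only [ND, mem_filter, mem_range] at haND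
      obtain ⟨v, hv, hdv⟩ := hK (j * L) a haND.1
      have h2 : ((ND b A L (j + 1)).filter (fun x => x % B = a)).card ≤
          ((range (b ^ L)).erase v).card := by
        apply card_le_card_of_injOn (fun x => x / B)
        · intro x hx
          simp only [coe_filter, Set.mem_ofPred_eq, ND, mem_filter, mem_range] at hx
          obtain ⟨⟨hxlt, hxnd⟩, hxa⟩ := hx
          simp only [coe_erase, coe_range, Set.mem_sdiff, Set.mem_Iio, Set.mem_singleton_iff]
          refine ⟨?_, ?_⟩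
          · rw [Nat.div_lt_iff_lt_mul hBpos]
            rw [hlev, pow_add] at hxlt
            rw [mul_comm]; exact hxlt
          · intro hxv
            apply hxnd
            rw [hlev]
            have h3 : x = a + B * v := by
              rw [← hxa, ← hxv]; exact (Nat.mod_add_div x B).symm
            rw [h3]; exact hdv
        · intro x hx y hy hxy
          simp only [coe_filter, Set.mem_ofPred_eq] at hx hy
          have h1 := Nat.mod_add_div x B
          have h2 := Nat.mod_add_div y B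
          have hxy' : x / B = y / B := hxy
          rw [hx.2] at h1; rw [hy.2, ← hxy'] at h2
          exact h1.symm.trans h2
      calc _ ≤ ((range (b ^ L)).erase v).card := h2
        _ = b ^ L - 1 := by rw [card_erase_of_mem (mem_range.2 hv), card_range]
    calc (ND b A L (j + 1)).card
        ≤ (b ^ L - 1) * ((ND b A L (j + 1)).image (fun x => x % B)).card :=
          card_le_mul_card_image _ _ hfib
      _ ≤ (b ^ L - 1) * (ND b A L j).card := Nat.mul_le_mul_left _ (card_le_card himg)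
      _ ≤ (b ^ L - 1) * (b ^ L - 1) ^ j := Nat.mul_le_mul_left _ ih
      _ = (b ^ L - 1) ^ (j + 1) := by rw [pow_succ]; ring

theorem card_Blk_le {b : ℕ} (hb : 2 ≤ b) (A : Set ℕ) (L : ℕ)
    (hK : ∀ s r, r < b ^ s → ∃ v, v < b ^ L ∧ Dead b A (s + L) (r + b ^ s * v)) (j : ℕ) :
    (Blk b A L j).card ≤ b ^ L * (b ^ L - 1) ^ j := by
  classical
  set B := b ^ (j * L) with hB
  have hBpos : 0 < B := Nat.pow_pos (by omega)
  have hlev : (j + 1) * L = j * L + L := by ring
  have himg : (Blk b A L j).image (fun x => x % B) ⊆ ND b A L j := by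
    intro a ha
    obtain ⟨x, hx, rfl⟩ := mem_image.1 ha
    simp only [Blk, mem_filter, mem_Ico] at hx
    simp only [ND, mem_filter, mem_range]
    refine ⟨Nat.mod_lt _ hBpos, fun hd => ?_⟩
    have h1 := hd (x / B) (Nat.div_pos hx.1.1 hBpos)
    rw [Nat.mod_add_div] at h1
    exact h1 hx.2
  have hfib : ∀ a ∈ (Blk b A L j).image (fun x => x % B),
      ((Blk b A L j).filter (fun x => x % B = a)).card ≤ b ^ L := by
    intro a _
    have h2 : ((Blk b A L j).filter (fun x => x % B = a)).card ≤ (range (b ^ L)).card := by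
      apply card_le_card_of_injOn (fun x => x / B)
      · intro x hx
        simp only [coe_filter, Set.mem_ofPred_eq, Blk, mem_filter, mem_Ico] at hx
        obtain ⟨⟨⟨_, hxlt⟩, _⟩, _⟩ := hx
        simp only [coe_range, Set.mem_Iio]
        rw [Nat.div_lt_iff_lt_mul hBpos]
        rw [hlev, pow_add] at hxlt
        rw [mul_comm]; exact hxlt
      · intro x hx y hy hxy
        simp only [coe_filter, Set.mem_ofPred_eq] at hx hy
        have h1 := Nat.mod_add_div x B
        have h2 := Nat.mod_add_div y B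
        have hxy' : x / B = y / B := hxy
        rw [hx.2] at h1; rw [hy.2, ← hxy'] at h2
        exact h1.symm.trans h2
    simpa using h2
  calc (Blk b A L j).card
      ≤ b ^ L * ((Blk b A L j).image (fun x => x % B)).card :=
        card_le_mul_card_image _ _ hfib
    _ ≤ b ^ L * (ND b A L j).card := Nat.mul_le_mul_left _ (card_le_card himg)
    _ ≤ b ^ L * (b ^ L - 1) ^ j := Nat.mul_le_mul_left _ (card_ND_le hb A L hK j)

theorem sum_le {b : ℕ} (hb : 2 ≤ b) (A : Set ℕ) (L : ℕ)
    (hK : ∀ s r, r < b ^ s → ∃ v, v < b ^ L ∧ Dead b A (s + L) (r + b ^ s * v)) (J : ℕ) :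
    ∑ n ∈ range (b ^ (J * L)), A.indicator (fun n : ℕ => (1 : ℝ) / n) n ≤
      ((b : ℝ) ^ L) ^ 2 * (1 - (((b : ℝ) ^ L - 1) / (b : ℝ) ^ L) ^ J) := by
  classical
  have hq1 : (1 : ℝ) ≤ (b : ℝ) ^ L := by
    have : (1 : ℝ) ≤ (b : ℝ) := by exact_mod_cast (by omega : 1 ≤ b)
    exact one_le_pow₀ this
  induction J with
  | zero =>
    simp [Set.indicator]
  | succ J ih =>
    set q : ℝ := (b : ℝ) ^ L with hq
    have hqpos : 0 < q := by linarith
    set B := b ^ (J * L) with hB
    have hBpos : 0 < B := Nat.pow_pos (by omega)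
    have hBle : B ≤ b ^ ((J + 1) * L) :=
      Nat.pow_le_pow_right (by omega) (Nat.mul_le_mul_right _ (Nat.le_succ J))
    have hsplit : ∑ n ∈ range (b ^ ((J + 1) * L)), A.indicator (fun n : ℕ => (1 : ℝ) / n) n =
        ∑ n ∈ range B, A.indicator (fun n : ℕ => (1 : ℝ) / n) n +
          ∑ n ∈ Ico B (b ^ ((J + 1) * L)), A.indicator (fun n : ℕ => (1 : ℝ) / n) n := by
      rw [range_eq_Ico, range_eq_Ico]
      exact (sum_Ico_consecutive _ (Nat.zero_le B) hBle).symm
    have hBcast : (B : ℝ) = q ^ J := by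
      rw [hB, hq]; push_cast; rw [← pow_mul]; congr 1; ring
    have hblock : ∑ n ∈ Ico B (b ^ ((J + 1) * L)), A.indicator (fun n : ℕ => (1 : ℝ) / n) n ≤
        q * ((q - 1) / q) ^ J := by
      have h1 : ∑ n ∈ Ico B (b ^ ((J + 1) * L)), A.indicator (fun n : ℕ => (1 : ℝ) / n) n =
          ∑ n ∈ Blk b A L J, (1 : ℝ) / n := by
        rw [Blk, sum_filter]
        refine sum_congr rfl (fun n _ => ?_)
        simp [Set.indicator]
      have h2 : ∑ n ∈ Blk b A L J, (1 : ℝ) / n ≤ ∑ _n ∈ Blk b A L J, (1 : ℝ) / B := by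
        refine sum_le_sum (fun n hn => ?_)
        simp only [Blk, mem_filter, mem_Ico] at hn
        apply one_div_le_one_div_of_le
        · exact_mod_cast hBpos
        · exact_mod_cast hn.1.1
      have h3 : ((Blk b A L J).card : ℝ) ≤ q * (q - 1) ^ J := by
        have h4 := card_Blk_le hb A L hK J
        have h5 : ((b ^ L * (b ^ L - 1) ^ J : ℕ) : ℝ) = q * (q - 1) ^ J := by
          have h6 : 1 ≤ b ^ L := Nat.pow_pos (by omega)
          rw [hq]; push_cast [Nat.cast_sub h6]; ring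
        rw [← h5]; exact_mod_cast h4
      rw [h1]
      refine h2.trans ?_
      rw [sum_const, nsmul_eq_mul, hBcast, div_pow, mul_one_div]
      rw [div_le_iff₀ (pow_pos hqpos J)]
      calc ((Blk b A L J).card : ℝ) ≤ q * (q - 1) ^ J := h3
        _ = q * ((q - 1) ^ J / q ^ J) * q ^ J := by
          field_simp
    rw [hsplit]
    have hρq : q * ((q - 1) / q) = q - 1 := by field_simp
    have hρ : q ^ 2 * (1 - ((q - 1) / q) ^ (J + 1)) =
        q ^ 2 * (1 - ((q - 1) / q) ^ J) + q * ((q - 1) / q) ^ J := by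
      rw [pow_succ]
      linear_combination (-q * ((q - 1) / q) ^ J) * hρq
    rw [hρ]
    exact add_le_add ih hblock

theorem summable_of_kill {b : ℕ} (hb : 2 ≤ b) (A : Set ℕ) (l : ℕ)
    (hK : ∀ s r, r < b ^ s → ∃ v, v < b ^ l ∧ Dead b A (s + l) (r + b ^ s * v)) :
    Summable (A.indicator (fun n : ℕ => (1 : ℝ) / n)) := by
  have hK' : ∀ s r, r < b ^ s →
      ∃ v, v < b ^ (l + 1) ∧ Dead b A (s + (l + 1)) (r + b ^ s * v) := by
    intro s r hr
    obtain ⟨v, hv, hd⟩ := hK s r hr
    refine ⟨v, lt_of_lt_of_le hv (Nat.pow_le_pow_right (by omega) (by omega)), ?_⟩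
    have h1 := dead_ext hb hd 1 0
    simpa [add_assoc] using h1
  have hq1 : (1 : ℝ) ≤ (b : ℝ) ^ (l + 1) := by
    have : (1 : ℝ) ≤ (b : ℝ) := by exact_mod_cast (by omega : 1 ≤ b)
    exact one_le_pow₀ this
  have hnn : ∀ n, 0 ≤ A.indicator (fun n : ℕ => (1 : ℝ) / n) n := fun n =>
    Set.indicator_nonneg (fun _ _ => by positivity) n
  apply summable_of_sum_range_le (c := ((b : ℝ) ^ (l + 1)) ^ 2) hnn
  intro N
  have hN : N ≤ b ^ (N * (l + 1)) := by
    have h1 : N < b ^ N := Nat.lt_pow_self (by omega)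
    have h2 : b ^ N ≤ b ^ (N * (l + 1)) :=
      Nat.pow_le_pow_right (by omega) (Nat.le_mul_of_pos_right _ (by omega))
    omega
  calc ∑ n ∈ range N, A.indicator (fun n : ℕ => (1 : ℝ) / n) n
      ≤ ∑ n ∈ range (b ^ (N * (l + 1))), A.indicator (fun n : ℕ => (1 : ℝ) / n) n :=
        sum_le_sum_of_subset_of_nonneg (range_mono hN) (fun n _ _ => hnn n)
    _ ≤ ((b : ℝ) ^ (l + 1)) ^ 2 *
          (1 - (((b : ℝ) ^ (l + 1) - 1) / (b : ℝ) ^ (l + 1)) ^ N) := sum_le hb A (l + 1) hK' N
    _ ≤ ((b : ℝ) ^ (l + 1)) ^ 2 := by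
        have h3 : 0 ≤ (((b : ℝ) ^ (l + 1) - 1) / (b : ℝ) ^ (l + 1)) ^ N := by
          apply pow_nonneg
          apply div_nonneg <;> linarith
        have h4 : 0 ≤ ((b : ℝ) ^ (l + 1)) ^ 2 := by positivity
        nlinarith

theorem ap_of_not_kill {b : ℕ} (hb : 2 ≤ b) (A : Set ℕ) {κ : Type*} [Finite κ] (T : ℕ → ℕ → κ)
    (hT : ∀ s r r', r < b ^ s → r' < b ^ s → T s r = T s r' →
      ∀ t, 0 < t → r + b ^ s * t ∈ A → r' + b ^ s * t ∈ A)
    (hnK : ∀ l, ∃ s r, r < b ^ s ∧ ∀ v, v < b ^ l → ¬ Dead b A (s + l) (r + b ^ s * v))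
    (k : ℕ) : ∃ a d, 0 < d ∧ ∀ i ≤ k, a + i * d ∈ A := by
  classical
  obtain ⟨ι, _, hHJ⟩ := Combinatorics.Line.exists_mono_in_high_dimension (Fin (k + 1)) κ
  obtain ⟨s, r, hr, hnd⟩ := hnK (k * Fintype.card ι)
  have hkn : k * Fintype.card ι < b ^ (k * Fintype.card ι) := Nat.lt_pow_self (by omega)
  obtain ⟨line, c, hc⟩ := hHJ (fun x =>
    T (s + k * Fintype.card ι) (r + b ^ s * ∑ i, ((x i : Fin (k + 1)) : ℕ)))
  have hd : 0 < (univ.filter (fun i => line.idxFun i = none)).card := by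
    obtain ⟨i, hi⟩ := line.proper
    exact card_pos.2 ⟨i, by simp [hi]⟩
  have hval : ∀ j : Fin (k + 1), ∑ i, ((line j i : Fin (k + 1)) : ℕ) =
      ∑ i, ((line 0 i : Fin (k + 1)) : ℕ) +
        (j : ℕ) * (univ.filter (fun i => line.idxFun i = none)).card := by
    intro j
    have h1 : ∀ i, ((line j i : Fin (k + 1)) : ℕ) =
        ((line 0 i : Fin (k + 1)) : ℕ) + if line.idxFun i = none then (j : ℕ) else 0 := by
      intro i
      simp only [Combinatorics.Line.coe_apply]
      cases h : line.idxFun i <;> simp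
    rw [sum_congr rfl (fun i _ => h1 i), sum_add_distrib, sum_ite, sum_const,
      sum_const_zero, add_zero, smul_eq_mul, mul_comm]
  have hvalle : ∀ j : Fin (k + 1), ∑ i, ((line j i : Fin (k + 1)) : ℕ) ≤ k * Fintype.card ι := by
    intro j
    calc ∑ i, ((line j i : Fin (k + 1)) : ℕ) ≤ ∑ _i : ι, k :=
          sum_le_sum (fun i _ => Nat.lt_succ_iff.1 (line j i).2)
      _ = k * Fintype.card ι := by simp [mul_comm]
  have hlt : ∀ j : Fin (k + 1),
      r + b ^ s * ∑ i, ((line j i : Fin (k + 1)) : ℕ) < b ^ (s + k * Fintype.card ι) := by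
    intro j
    have h1 : ∑ i, ((line j i : Fin (k + 1)) : ℕ) < b ^ (k * Fintype.card ι) :=
      lt_of_le_of_lt (hvalle j) hkn
    calc r + b ^ s * ∑ i, ((line j i : Fin (k + 1)) : ℕ)
        < b ^ s + b ^ s * ∑ i, ((line j i : Fin (k + 1)) : ℕ) := by omega
      _ = b ^ s * (∑ i, ((line j i : Fin (k + 1)) : ℕ) + 1) := by ring
      _ ≤ b ^ s * b ^ (k * Fintype.card ι) := Nat.mul_le_mul_left _ h1
      _ = b ^ (s + k * Fintype.card ι) := by rw [pow_add]
  have hr0 := hnd _ (lt_of_le_of_lt (hvalle 0) hkn)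
  simp only [Dead, not_forall, not_not] at hr0
  obtain ⟨t, ht, hmem⟩ := hr0
  refine ⟨r + b ^ s * ∑ i, ((line 0 i : Fin (k + 1)) : ℕ) + b ^ (s + k * Fintype.card ι) * t,
    b ^ s * (univ.filter (fun i => line.idxFun i = none)).card,
    Nat.mul_pos (Nat.pow_pos (by omega)) hd, ?_⟩
  intro i hi
  have hj := hval ⟨i, Nat.lt_succ_of_le hi⟩
  have hcol : T (s + k * Fintype.card ι) (r + b ^ s * ∑ i, ((line 0 i : Fin (k + 1)) : ℕ)) =
      T (s + k * Fintype.card ι)
        (r + b ^ s * ∑ i', ((line ⟨i, Nat.lt_succ_of_le hi⟩ i' : Fin (k + 1)) : ℕ)) :=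
    (hc 0).trans (hc ⟨i, Nat.lt_succ_of_le hi⟩).symm
  have h2 := hT _ _ _ (hlt 0) (hlt ⟨i, Nat.lt_succ_of_le hi⟩) hcol t ht hmem
  rw [hj] at h2
  have h3 : r + b ^ s * ∑ i, ((line 0 i : Fin (k + 1)) : ℕ) + b ^ (s + k * Fintype.card ι) * t +
      i * (b ^ s * (univ.filter (fun i => line.idxFun i = none)).card) =
      r + b ^ s * (∑ i, ((line 0 i : Fin (k + 1)) : ℕ) +
        i * (univ.filter (fun i => line.idxFun i = none)).card) +
        b ^ (s + k * Fintype.card ι) * t := by ring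
  rw [h3]; exact h2

/-- Core theorem: bounded residual width and divergent reciprocal series give arithmetic
progressions of every length. -/
theorem core {b : ℕ} (hb : 2 ≤ b) (A : Set ℕ) {κ : Type*} [Finite κ] (T : ℕ → ℕ → κ)
    (hT : ∀ s r r', r < b ^ s → r' < b ^ s → T s r = T s r' →
      ∀ t, 0 < t → r + b ^ s * t ∈ A → r' + b ^ s * t ∈ A)
    (hdiv : ¬ Summable (A.indicator (fun n : ℕ => (1 : ℝ) / n))) (k : ℕ) :
    ∃ a d, 0 < d ∧ ∀ i < k, a + i * d ∈ A := by
  by_cases hK : ∃ l, ∀ s r, r < b ^ s → ∃ v, v < b ^ l ∧ Dead b A (s + l) (r + b ^ s * v)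
  · obtain ⟨l, hl⟩ := hK
    exact absurd (summable_of_kill hb A l hl) hdiv
  · have hnK : ∀ l, ∃ s r, r < b ^ s ∧ ∀ v, v < b ^ l → ¬ Dead b A (s + l) (r + b ^ s * v) := by
      intro l
      by_contra hcon
      apply hK
      refine ⟨l, fun s r hr => ?_⟩
      by_contra h2
      apply hcon
      refine ⟨s, r, hr, fun v hv hd => h2 ⟨v, hv, hd⟩⟩
    obtain ⟨a, d, hd, hap⟩ := ap_of_not_kill hb A T hT hnK k
    exact ⟨a, d, hd, fun i hi => hap i (le_of_lt hi)⟩

end Vale.Agent.Lib.P057.H31
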