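import Vale.Agent.Lib.P057.helper31.Core

/-!
# P057 (helper31): a uniform bound for the reciprocal sum

For sets of bounded residual width without `k`-term arithmetic progressions the reciprocal sum is
bounded by a constant depending only on the base, on `k` and on the type of classes.
-/

namespace Vale.Agent.Lib.P057.H31

open Finset

theorem partial_sums_le {b : ℕ} (hb : 2 ≤ b) (A : Set ℕ) (l : ℕ)
    (hK : ∀ s r, r < b ^ s → ∃ v, v < b ^ l ∧ Dead b A (s + l) (r + b ^ s * v)) (N : ℕ) :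
    ∑ n ∈ range N, A.indicator (fun n : ℕ => (1 : ℝ) / n) n ≤ ((b : ℝ) ^ (l + 1)) ^ 2 := by
  have hK' : ∀ s r, r < b ^ s →
      ∃ v, v < b ^ (l + 1) ∧ Dead b A (s + (l + 1)) (r + b ^ s * v) := by
    intro s r hr
    obtain ⟨v, hv, hd⟩ := hK s r hr
    refine ⟨v, lt_of_lt_of_le hv (Nat.pow_le_pow_right (by omega) (by omega)), ?_⟩
    have h1 := dead_ext hb hd 1 0
    simpa [add_assoc] using h1
  have hq1 : (1 : ℝ) ≤ (b : ℝ) ^ (l + 1) := by
    have : (1 : ℝ) ≤ (b : ℝ) := by exact_mod_cast (by omega : 1 ≤ b)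
    exact one_le_pow₀ this
  have hnn : ∀ n, 0 ≤ A.indicator (fun n : ℕ => (1 : ℝ) / n) n := fun n =>
    Set.indicator_nonneg (fun _ _ => by positivity) n
  have hN : N ≤ b ^ (N * (l + 1)) := by
    have h1 : N < b ^ N := Nat.lt_pow_self (by omega)
    have h2 : b ^ N ≤ b ^ (N * (l + 1)) :=
      Nat.pow_le_pow_right (by omega) (Nat.le_mul_of_pos_right _ (by omega))
    omega
  calc ∑ n ∈ range N, A.indicator (fun n : ℕ => (1 : ℝ) / n) n
      ≤ ∑ n ∈ range (b ^ (N * (l + 1))), A.indicator (fun n : ℕ => (1 : ℝ) / n) n :=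
        sum_le_sum_of_subset_of_nonneg (range_mono hN) (fun n _ _ => hnn n)
    _ ≤ ((b : ℝ) ^ (l + 1)) ^ 2 *
          (1 - (((b : ℝ) ^ (l + 1) - 1) / (b : ℝ) ^ (l + 1)) ^ N) := sum_le hb A (l + 1) hK' N
    _ ≤ ((b : ℝ) ^ (l + 1)) ^ 2 := by
        have h3 : 0 ≤ (((b : ℝ) ^ (l + 1) - 1) / (b : ℝ) ^ (l + 1)) ^ N := by
          apply pow_nonneg
          apply div_nonneg <;> linarith
        have h4 : 0 ≤ ((b : ℝ) ^ (l + 1)) ^ 2 := by positivity
        nlinarith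

theorem ap_of_window {b : ℕ} (hb : 2 ≤ b) (A : Set ℕ) {κ : Type*} (T : ℕ → ℕ → κ)
    (hT : ∀ s r r', r < b ^ s → r' < b ^ s → T s r = T s r' →
      ∀ t, 0 < t → r + b ^ s * t ∈ A → r' + b ^ s * t ∈ A)
    (k : ℕ) {ι : Type} [Fintype ι]
    (hHJ : ∀ C : (ι → Fin (k + 1)) → κ, ∃ l : Combinatorics.Line (Fin (k + 1)) ι, l.IsMono C)
    (s r : ℕ) (hr : r < b ^ s)
    (hnd : ∀ v, v < b ^ (k * Fintype.card ι) →
      ¬ Dead b A (s + k * Fintype.card ι) (r + b ^ s * v)) :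
    ∃ a d, 0 < d ∧ ∀ i ≤ k, a + i * d ∈ A := by
  classical
  have hkn : k * Fintype.card ι < b ^ (k * Fintype.card ι) := Nat.lt_pow_self (by omega)
  obtain ⟨line, c, hc⟩ := hHJ (fun x =>
    T (s + k * Fintype.card ι) (r + b ^ s * ∑ i, ((x i : Fin (k + 1)) : ℕ)))
  have hd : 0 < (univ.filter (fun i => line.idxFun i = none)).card := by
    obtain ⟨i, hi⟩ := line.proper
    exact card_pos.2 ⟨i, by simp [hi]⟩
  have hval : ∀ j : Fin (k + 1), ∑ i, ((line j i : Fin (k + 1)) : ℕ) =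
      ∑ i, ((line 0 i : Fin (k + 1)) : ℕ) +
        (j : ℕ) * (univ.filter (fun i => line.idxFun i = none)).card := by
    intro j
    have h1 : ∀ i, ((line j i : Fin (k + 1)) : ℕ) =
        ((line 0 i : Fin (k + 1)) : ℕ) + if line.idxFun i = none then (j : ℕ) else 0 := by
      intro i
      simp only [Combinatorics.Line.coe_apply]
      cases h : line.idxFun i <;> simp
    rw [sum_congr rfl (fun i _ => h1 i), sum_add_distrib, sum_ite, sum_const,
      sum_const_zero, add_zero, smul_eq_mul, mul_comm]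
  have hvalle : ∀ j : Fin (k + 1), ∑ i, ((line j i : Fin (k + 1)) : ℕ) ≤ k * Fintype.card ι := by
    intro j
    calc ∑ i, ((line j i : Fin (k + 1)) : ℕ) ≤ ∑ _i : ι, k :=
          sum_le_sum (fun i _ => Nat.lt_succ_iff.1 (line j i).2)
      _ = k * Fintype.card ι := by simp [mul_comm]
  have hlt : ∀ j : Fin (k + 1),
      r + b ^ s * ∑ i, ((line j i : Fin (k + 1)) : ℕ) < b ^ (s + k * Fintype.card ι) := by
    intro j
    have h1 : ∑ i, ((line j i : Fin (k + 1)) : ℕ) < b ^ (k * Fintype.card ι) :=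
      lt_of_le_of_lt (hvalle j) hkn
    calc r + b ^ s * ∑ i, ((line j i : Fin (k + 1)) : ℕ)
        < b ^ s + b ^ s * ∑ i, ((line j i : Fin (k + 1)) : ℕ) := by omega
      _ = b ^ s * (∑ i, ((line j i : Fin (k + 1)) : ℕ) + 1) := by ring
      _ ≤ b ^ s * b ^ (k * Fintype.card ι) := Nat.mul_le_mul_left _ h1
      _ = b ^ (s + k * Fintype.card ι) := by rw [pow_add]
  have hr0 := hnd _ (lt_of_le_of_lt (hvalle 0) hkn)
  simp only [Dead, not_forall, not_not] at hr0
  obtain ⟨t, ht, hmem⟩ := hr0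
  refine ⟨r + b ^ s * ∑ i, ((line 0 i : Fin (k + 1)) : ℕ) + b ^ (s + k * Fintype.card ι) * t,
    b ^ s * (univ.filter (fun i => line.idxFun i = none)).card,
    Nat.mul_pos (Nat.pow_pos (by omega)) hd, ?_⟩
  intro i hi
  have hj := hval ⟨i, Nat.lt_succ_of_le hi⟩
  have hcol : T (s + k * Fintype.card ι) (r + b ^ s * ∑ i, ((line 0 i : Fin (k + 1)) : ℕ)) =
      T (s + k * Fintype.card ι)
        (r + b ^ s * ∑ i', ((line ⟨i, Nat.lt_succ_of_le hi⟩ i' : Fin (k + 1)) : ℕ)) :=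
    (hc 0).trans (hc ⟨i, Nat.lt_succ_of_le hi⟩).symm
  have h2 := hT _ _ _ (hlt 0) (hlt ⟨i, Nat.lt_succ_of_le hi⟩) hcol t ht hmem
  rw [hj] at h2
  have h3 : r + b ^ s * ∑ i, ((line 0 i : Fin (k + 1)) : ℕ) + b ^ (s + k * Fintype.card ι) * t +
      i * (b ^ s * (univ.filter (fun i => line.idxFun i = none)).card) =
      r + b ^ s * (∑ i, ((line 0 i : Fin (k + 1)) : ℕ) +
        i * (univ.filter (fun i => line.idxFun i = none)).card) +
        b ^ (s + k * Fintype.card ι) * t := by ring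
  rw [h3]; exact h2

/-- Uniform bound: a set of residual width `κ` in base `b` without `k`-term arithmetic
progressions has reciprocal sum at most a constant depending only on `b`, `k` and `κ`. -/
theorem uniform_bound (b : ℕ) (hb : 2 ≤ b) (k : ℕ) (κ : Type*) [Finite κ] :
    ∃ C : ℝ, ∀ (A : Set ℕ) (T : ℕ → ℕ → κ),
      (∀ s r r', r < b ^ s → r' < b ^ s → T s r = T s r' →
        ∀ t, 0 < t → r + b ^ s * t ∈ A → r' + b ^ s * t ∈ A) →
      (¬ ∃ a d : ℕ, 0 < d ∧ ∀ i < k, a + i * d ∈ A) →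
      Summable (fun a : A => (1 : ℝ) / ((a : ℕ) : ℝ)) ∧
        ∑' a : A, (1 : ℝ) / ((a : ℕ) : ℝ) ≤ C := by
  classical
  obtain ⟨ι, _, hHJ⟩ := Combinatorics.Line.exists_mono_in_high_dimension (Fin (k + 1)) κ
  refine ⟨((b : ℝ) ^ (k * Fintype.card ι + 1)) ^ 2, fun A T hT hno => ?_⟩
  have hK : ∀ s r, r < b ^ s → ∃ v, v < b ^ (k * Fintype.card ι) ∧
      Dead b A (s + k * Fintype.card ι) (r + b ^ s * v) := by
    intro s r hr
    by_contra hcon
    have hcon' : ∀ v, v < b ^ (k * Fintype.card ι) →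
        ¬ Dead b A (s + k * Fintype.card ι) (r + b ^ s * v) :=
      fun v hv hd => hcon ⟨v, hv, hd⟩
    obtain ⟨a, d, hd, hap⟩ := ap_of_window hb A T hT k hHJ s r hr hcon'
    exact hno ⟨a, d, hd, fun i hi => hap i (le_of_lt hi)⟩
  have hbound := partial_sums_le hb A (k * Fintype.card ι) hK
  have hnn : ∀ n, 0 ≤ A.indicator (fun n : ℕ => (1 : ℝ) / n) n := fun n =>
    Set.indicator_nonneg (fun _ _ => by positivity) n
  refine ⟨(summable_subtype_iff_indicator (f := fun n : ℕ => (1 : ℝ) / n) (s := A)).2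
    (summable_of_sum_range_le hnn hbound), ?_⟩
  rw [tsum_subtype A (fun n : ℕ => (1 : ℝ) / n)]
  exact Real.tsum_le_of_sum_range_le hnn hbound

end Vale.Agent.Lib.P057.H31
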